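import Vale.Agent.P092.H368.SN.Mod
import Vale.Agent.P092.H515.RkDef

/-!
P092, D-ULTRA [U3] (helper252): a local field carries a norm `‖x‖ ^ s` (`0 < s ≤ 1`) with the same
topology for which some `w` with `‖w‖ < 1` has modulus `md w ≤ ‖w‖`.
-/

set_option linter.all false

open MeasureTheory Filter Topology

namespace Vale.Agent.P092.H252.DU

open Vale.Agent.P092.H368.SN (md md_pos md_lt_one)

section def_

variable (k : Type) [hk : NontriviallyNormedField k]

/-- the metric `‖x - y‖ ^ s` -/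
@[reducible] noncomputable def met0 {s : ℝ} (hs : 0 < s) (hs1 : s ≤ 1) : MetricSpace k where
  dist x y := ‖x - y‖ ^ s
  dist_self x := by simp [hs.ne']
  dist_comm x y := by rw [norm_sub_rev]
  dist_triangle x y z := by
    have h1 : ‖x - z‖ ≤ ‖x - y‖ + ‖y - z‖ := by
      have := norm_add_le (x - y) (y - z)
      rwa [sub_add_sub_cancel] at this
    refine (Real.rpow_le_rpow (norm_nonneg _) h1 hs.le).trans ?_
    exact Real.rpow_add_le_add_rpow (norm_nonneg _) (norm_nonneg _) hs.le hs1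
  eq_of_dist_eq_zero {x y} h := by
    have h1 : ‖x - y‖ = 0 := (Real.rpow_eq_zero (norm_nonneg _) hs.ne').1 h
    exact sub_eq_zero.1 (norm_eq_zero.1 h1)

theorem top_eq {s : ℝ} (hs : 0 < s) (hs1 : s ≤ 1) :
    (hk.toNormedField.toMetricSpace.toPseudoMetricSpace.toUniformSpace.toTopologicalSpace :
      TopologicalSpace k) =
      (met0 k hs hs1).toPseudoMetricSpace.toUniformSpace.toTopologicalSpace := by
  refine TopologicalSpace.ext_nhds fun x => ?_
  refine (Metric.nhds_basis_ball (x := x)).ext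
    (@Metric.nhds_basis_ball k (met0 k hs hs1).toPseudoMetricSpace x) ?_ ?_
  · intro ε hε
    refine ⟨ε ^ s, Real.rpow_pos_of_pos hε s, fun y hy => ?_⟩
    have h1 : ‖y - x‖ ^ s < ε ^ s := hy
    rw [Metric.mem_ball, dist_eq_norm]
    exact (Real.rpow_lt_rpow_iff (norm_nonneg _) hε.le hs).1 h1
  · intro ε hε
    refine ⟨ε ^ (1 / s), Real.rpow_pos_of_pos hε _, fun y hy => ?_⟩
    rw [Metric.mem_ball, dist_eq_norm] at hy
    change ‖y - x‖ ^ s < ε
    have h1 := Real.rpow_lt_rpow (norm_nonneg _) hy hs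
    rwa [← Real.rpow_mul hε.le, one_div, inv_mul_cancel₀ hs.ne', Real.rpow_one] at h1

/-- the metric `‖x - y‖ ^ s`, with the old topology -/
@[reducible] noncomputable def met1 {s : ℝ} (hs : 0 < s) (hs1 : s ≤ 1) : MetricSpace k :=
  MetricSpace.replaceTopology (met0 k hs hs1) (top_eq k hs hs1)

/-- the norm `‖x‖ ^ s` -/
@[reducible] noncomputable def rnf0 {s : ℝ} (hs : 0 < s) (hs1 : s ≤ 1) : NormedField k :=
  { toNorm := ⟨fun x => ‖x‖ ^ s⟩
    toField := hk.toNormedField.toField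
    toMetricSpace := met1 k hs hs1
    dist_eq := fun x y => by
      change ‖x - y‖ ^ s = ‖-x + y‖ ^ s
      rw [neg_add_eq_sub, norm_sub_rev]
    norm_mul := fun x y => by
      change ‖x * y‖ ^ s = ‖x‖ ^ s * ‖y‖ ^ s
      rw [norm_mul, Real.mul_rpow (norm_nonneg _) (norm_nonneg _)] }

theorem rnt {s : ℝ} (hs : 0 < s) : ∃ x : k, 1 < ‖x‖ ^ s := by
  obtain ⟨x, hx⟩ := hk.non_trivial
  exact ⟨x, Real.one_lt_rpow hx hs⟩

/-- the norm `‖x‖ ^ s` -/
@[reducible] noncomputable def rnf {s : ℝ} (hs : 0 < s) (hs1 : s ≤ 1) :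
    NontriviallyNormedField k :=
  { toNormedField := rnf0 k hs hs1
    non_trivial := rnt k hs }

end def_

section main

variable {k : Type} [hk : NontriviallyNormedField k]

theorem rproper [hp : ProperSpace k] {s : ℝ} (hs : 0 < s) (hs1 : s ≤ 1) :
    @ProperSpace k (rnf k hs hs1).toNormedField.toMetricSpace.toPseudoMetricSpace := by
  refine @ProperSpace.mk k (rnf k hs hs1).toNormedField.toMetricSpace.toPseudoMetricSpace
    fun x r => ?_
  rcases lt_or_ge r 0 with hr | hr
  · have e : @Metric.closedBall k (rnf k hs hs1).toNormedField.toMetricSpace.toPseudoMetricSpace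
        x r = ∅ := @Metric.closedBall_eq_empty k
          (rnf k hs hs1).toNormedField.toMetricSpace.toPseudoMetricSpace x r |>.2 hr
    rw [e]
    exact isCompact_empty
  · have e : @Metric.closedBall k (rnf k hs hs1).toNormedField.toMetricSpace.toPseudoMetricSpace
        x r = Metric.closedBall x (r ^ (1 / s)) := by
      ext y
      change ‖y - x‖ ^ s ≤ r ↔ dist y x ≤ r ^ (1 / s)
      rw [dist_eq_norm]
      constructor
      · intro h
        have h1 := Real.rpow_le_rpow (Real.rpow_nonneg (norm_nonneg _) _) h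
          (one_div_pos.2 hs).le
        rwa [← Real.rpow_mul (norm_nonneg _), mul_one_div_cancel hs.ne', Real.rpow_one] at h1
      · intro h
        have h1 := Real.rpow_le_rpow (norm_nonneg _) h hs.le
        rwa [← Real.rpow_mul hr, one_div_mul_cancel hs.ne', Real.rpow_one] at h1
    rw [e]
    exact isCompact_closedBall x _

theorem rultra [hu : IsUltrametricDist k] {s : ℝ} (hs : 0 < s) (hs1 : s ≤ 1) :
    @IsUltrametricDist k
      (rnf k hs hs1).toNormedField.toMetricSpace.toPseudoMetricSpace.toDist := by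
  refine @IsUltrametricDist.mk k
    (rnf k hs hs1).toNormedField.toMetricSpace.toPseudoMetricSpace.toDist fun x y z => ?_
  change ‖x - z‖ ^ s ≤ max (‖x - y‖ ^ s) (‖y - z‖ ^ s)
  have h1 : ‖x - z‖ ≤ max ‖x - y‖ ‖y - z‖ := by
    have := hu.dist_triangle_max x y z
    rwa [dist_eq_norm, dist_eq_norm, dist_eq_norm] at this
  rcases le_max_iff.1 h1 with h | h
  · exact le_max_of_le_left (Real.rpow_le_rpow (norm_nonneg _) h hs.le)
  · exact le_max_of_le_right (Real.rpow_le_rpow (norm_nonneg _) h hs.le)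

/-- the modulus does not depend on the norm -/
theorem md_eq [hp : ProperSpace k] {s : ℝ} (hs : 0 < s) (hs1 : s ≤ 1) (w : kˣ) :
    @md k (rnf k hs hs1) (rproper hs hs1) w = md w := rfl

theorem exists_s [ProperSpace k] : ∃ (s : ℝ) (w : kˣ), 0 < s ∧ s ≤ 1 ∧ ‖(w : k)‖ < 1 ∧
    md w ≤ ‖(w : k)‖ ^ s := by
  obtain ⟨x, hx0, hx1⟩ := NormedField.exists_norm_lt_one k
  obtain ⟨w, hw⟩ : ∃ w : kˣ, w = Units.mk0 x (norm_pos_iff.1 hx0) := ⟨_, rfl⟩
  have hwn : ‖(w : k)‖ = ‖x‖ := by rw [hw]; rfl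
  have h0 : 0 < ‖(w : k)‖ := by rw [hwn]; exact hx0
  have h1 : ‖(w : k)‖ < 1 := by rw [hwn]; exact hx1
  have hm0 := md_pos w
  have hm1 := md_lt_one h1
  have hl : Real.log ‖(w : k)‖ < 0 := Real.log_neg h0 h1
  have hlm : Real.log (md w) < 0 := Real.log_neg hm0 hm1
  obtain ⟨t, ht⟩ : ∃ t, t = Real.log (md w) / Real.log ‖(w : k)‖ := ⟨_, rfl⟩
  have htpos : 0 < t := by rw [ht]; exact div_pos_of_neg_of_neg hlm hl
  refine ⟨min 1 t, w, lt_min one_pos htpos, min_le_left _ _, h1, ?_⟩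
  rw [Real.rpow_def_of_pos h0, ← Real.exp_log hm0]
  refine Real.exp_le_exp.2 ?_
  have h2 : Real.log ‖(w : k)‖ * t ≤ Real.log ‖(w : k)‖ * min 1 t :=
    mul_le_mul_of_nonpos_left (min_le_right _ _) hl.le
  refine le_trans (le_of_eq ?_) h2
  rw [ht, mul_div_cancel₀ _ hl.ne]

/-- **[U3] change of the norm** -/
theorem exists_norm (n : ℕ) [hp : ProperSpace k] [hu : IsUltrametricDist k] {Γ : Type} [Group Γ]
    (i : Γ →* Matrix.SpecialLinearGroup (Fin n) k) (hi : Function.Injective i)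
    (hl : H515.St.IsLattice i.range) :
    ∃ (k' : Type) (_ : NontriviallyNormedField k') (_ : ProperSpace k')
      (_ : IsUltrametricDist k') (w : k'ˣ) (i' : Γ →* Matrix.SpecialLinearGroup (Fin n) k'),
      ‖(w : k')‖ < 1 ∧ md w ≤ ‖(w : k')‖ ∧ Function.Injective i' ∧
        H515.St.IsLattice i'.range := by
  obtain ⟨s, w, hs, hs1, hw, hm⟩ := exists_s (k := k)
  refine ⟨k, rnf k hs hs1, rproper hs hs1, rultra hs hs1, w, i, ?_, ?_, hi, hl⟩
  · change ‖(w : k)‖ ^ s < 1
    exact Real.rpow_lt_one (norm_nonneg _) hw hs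
  · exact hm

end main

end Vale.Agent.P092.H252.DU
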