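import Vale.Agent.P092.H368.SN.OrbP
import Vale.Agent.P092.H252.DU.Norm

/-!
P092, D-ULTRA (helper252): the field `orb` of `SD.LegS` over any local field `k` whose norm satisfies
`md w ≤ ‖w‖`.
-/

set_option linter.all false

open scoped InnerProductSpace ENNReal
open Set Filter Topology MeasureTheory ContinuousLinearMap

namespace Vale.Agent.P092.H252.DU

open Vale.Agent.P092.H790 Vale.Agent.P092.H85 Vale.Agent.P092.H160 Vale.Agent.P092.H103
open Vale.Agent.P092.SR Vale.Agent.P092.H839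
open Vale.Agent.P092.SD (G3 bw un ORB)
open Vale.Agent.P092.RC (Cm TRN KK pic lam₁ lam₂ XX Om)
open Vale.Agent.P092.H790.CTA (ORBG)
open Vale.Agent.P092.H368.SN (md md_pos md_nonneg wl tv wdg spr_wl continuous_tv orbE₁ orbE₂)

section gen

variable {k : Type} [NontriviallyNormedField k]

theorem bw_eq (w : kˣ) : (bw w : G3 k) = wl (0 : Fin 3) w := by
  apply Subtype.ext
  change Matrix.diagonal _ = Matrix.diagonal (wdg (0 : Fin 3) w)
  congr 1
  funext x
  fin_cases x <;> simp [wdg]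

theorem un_eq : (un : k → G3 k) = tv (show (0 : Fin 3) ≠ 1 by decide) := rfl

theorem orb_of_orbg [ProperSpace k] [MeasurableSpace k] {μ : Measure k} {w : kˣ}
    (hm : md w ≤ ‖(w : k)‖) {Γ K : Type}
    [Group Γ] [NormedAddCommGroup K] [InnerProductSpace ℂ K] [CompleteSpace K]
    {π : G3 k →* (K →L[ℂ] K)} {lam : Γ →* (K →L[ℂ] K)} {W : Set (K →L[ℂ] K)} {Ω : K}
    (h : ORBG μ (bw w : G3 k) (un : k → G3 k) (md w ^ 3) π lam W Ω) :
    ORB μ w π lam W Ω := by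
  intro g δ hδ
  obtain ⟨C, hC⟩ := h g δ hδ
  refine ⟨|C|, fun N T hT hT1 => (hC N T hT hT1).trans ?_⟩
  gcongr
  · exact pow_nonneg (pow_nonneg (md_nonneg w) _) _
  · exact le_abs_self C
  · rw [← pow_mul]
    exact pow_le_pow_left₀ (md_nonneg w) hm _

end gen

section leg

variable {k : Type} [NontriviallyNormedField k] [ProperSpace k] [MeasurableSpace k] [BorelSpace k]
  (μ : Measure k) [μ.IsAddHaarMeasure]
  [LocallyCompactSpace (G3 k)] [SecondCountableTopology (G3 k)]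
  [MeasurableSpace (G3 k)] [BorelSpace (G3 k)] {Γ : Subgroup (G3 k)} [DiscreteTopology Γ]
  [Countable Γ] [MeasurableSpace (G3 k ⧸ Γ)] [BorelSpace (G3 k ⧸ Γ)]
  {ν : Measure (G3 k ⧸ Γ)} [IsProbabilityMeasure ν]
  (hν : ∀ g : G3 k, ν.map (fun x => g • x) = ν)
  {Λ : Type} [Group Λ] {α : Γ →* (Ell2 Λ →L[ℂ] Ell2 Λ)} (hα : Frame α)

theorem orb_leg₁ {w : kˣ} (hm : md w ≤ ‖(w : k)‖) : ORB μ w (pic hν hα) (lam₁ ν α)
    (XX ν Λ ∪ Set.range (lam₂ ν α)) (Om ν Λ) := by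
  refine orb_of_orbg hm ?_
  rw [bw_eq, un_eq]
  exact orbE₁ hν hα (continuous_tv _) (spr_wl _ w)

theorem orb_leg₂ {w : kˣ} (hm : md w ≤ ‖(w : k)‖) : ORB μ w (pic hν hα) (lam₂ ν α)
    (XX ν Λ ∪ Set.range (lam₁ ν α)) (Om ν Λ) := by
  refine orb_of_orbg hm ?_
  rw [bw_eq, un_eq]
  exact orbE₂ hν hα (continuous_tv _) (spr_wl _ w)

end leg

end Vale.Agent.P092.H252.DU
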