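import Vale.Agent.P092.SD.Blocks
import Vale.Agent.P092.H34.PicD
import Vale.Agent.P092.H264.EndC
import Vale.Agent.P092.H515.LatSl
import Vale.Agent.P092.H303.Form
import Vale.Agent.P092.RC.Cc
import Vale.Agent.P092.H200.Coc

/-!
P092, D-ULTRA [U12] (helper252): the joints over a nonarchimedean local field `k`. Same style as
`SD/Blocks` and `SD/Main`; the target group of the classical legs is `PGL_3(k)`.
-/

set_option linter.all false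

open scoped InnerProductSpace ENNReal LinearAlgebra.Projectivization ZeroAtInfty
open Filter Topology ContinuousLinearMap MeasureTheory TopologicalSpace Matrix

namespace Vale.Agent.P092.H252.DU

open Vale.Agent.P092.SD Vale.Agent.P092.SR Vale.Agent.P092.H160
open Vale.Agent.P092.RC (Cm TRN Moore Pic2 PG KK pic lam₁ lam₂ XX Om)

/-! ### The classical legs -/

/-- `SL_3(k) → PGL_3(k)` -/
def sp (k : Type) [NontriviallyNormedField k] : G3 k →* PG k 3 :=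
  (QuotientGroup.mk' _).comp Matrix.SpecialLinearGroup.toGL

section abs

variable {k : Type} [NontriviallyNormedField k] [ProperSpace k] {Γ K : Type}
  [Group Γ] [NormedAddCommGroup K] [InnerProductSpace ℂ K] [CompleteSpace K]

/-- A classical leg: the calculus `Q` of the collineation `x` of the target plane. -/
structure CQ (π : G3 k →* (K →L[ℂ] K)) (lam : Γ →* (K →L[ℂ] K)) (W : Set (K →L[ℂ] K))
    (q : Γ →* G3 k) (Q : C₀(PG k 3, ℂ) →⋆ₙₐ[ℂ] (K →L[ℂ] K)) : Prop where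
  nd : ∀ ξ, (∀ ψ, Q ψ ξ = 0) → ξ = 0
  cm : ∀ ψ, Cm W (Q ψ)
  cov : ∀ γ (ψ ψ' : C₀(PG k 3, ℂ)), (∀ x, ψ' x = ψ ((sp k (q γ))⁻¹ * x)) →
    lam γ * Q ψ * lam γ⁻¹ = Q ψ'
  pcov : ∀ h ψ, ∃ ψ', π h * Q ψ * π h⁻¹ = Q ψ'

end abs

/-- [U8] + [U9] Both legs are classical and commute (output of the classical leg over a general
field and of the cross-leg step). -/
def ClsXCStmt (k : Type) [NontriviallyNormedField k] [ProperSpace k] [MeasurableSpace k]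
    (μ : Measure k) : Prop :=
  ∀ {Γ K : Type} [Group Γ] [Countable Γ] [NormedAddCommGroup K] [InnerProductSpace ℂ K]
    [CompleteSpace K] (w : kˣ) (π : G3 k →* (K →L[ℂ] K)) (lam₁ lam₂ : Γ →* (K →L[ℂ] K))
    (X : Set (K →L[ℂ] K)) (Ω : K) (m₁ m₂ : Set Γ → (K →L[ℂ] K)) (q₁ q₂ : Γ →* G3 k)
    (E₁ F₁ E₂ F₂ : PP k → (CP k →⋆ₐ[ℂ] (K →L[ℂ] K))),
    Pic2 π lam₁ lam₂ X Ω → TV π lam₁ (X ∪ Set.range lam₂) Ω →
    TV π lam₂ (X ∪ Set.range lam₁) Ω →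
    LegS μ w π lam₁ (X ∪ Set.range lam₂) Ω m₁ q₁ E₁ F₁ →
    LegS μ w π lam₂ (X ∪ Set.range lam₁) Ω m₂ q₂ E₂ F₂ →
    (QP E₁ F₁ ∧ (∀ a b f g, Commute (E₁ a f) (E₁ b g)) ∧
      (∀ a l f h, Commute (E₁ a f) (F₁ l h)) ∧ ∀ l l' f g, Commute (F₁ l f) (F₁ l' g)) →
    (QP E₂ F₂ ∧ (∀ a b f g, Commute (E₂ a f) (E₂ b g)) ∧
      (∀ a l f h, Commute (E₂ a f) (F₂ l h)) ∧ ∀ l l' f g, Commute (F₂ l f) (F₂ l' g)) →
    ∃ Q₁ Q₂ : C₀(PG k 3, ℂ) →⋆ₙₐ[ℂ] (K →L[ℂ] K),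
      CQ π lam₁ (X ∪ Set.range lam₂) q₁ Q₁ ∧ CQ π lam₂ (X ∪ Set.range lam₁) q₂ Q₂ ∧
      ∀ ψ φ, Commute (Q₁ ψ) (Q₂ φ)

/-! ### The concrete picture -/

/-- The concrete picture of both legs and (TV). -/
def PicStmt (k : Type) [NontriviallyNormedField k] [ProperSpace k] : Prop :=
  ∀ [LocallyCompactSpace (G3 k)] [SecondCountableTopology (G3 k)] [MeasurableSpace (G3 k)]
    [BorelSpace (G3 k)] {Γ : Subgroup (G3 k)} [DiscreteTopology Γ] [Countable Γ]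
    [MeasurableSpace (G3 k ⧸ Γ)] [BorelSpace (G3 k ⧸ Γ)] {ν : Measure (G3 k ⧸ Γ)}
    [IsProbabilityMeasure ν] (hν : ∀ g : G3 k, ν.map (fun x => g • x) = ν)
    (_ : H515.St.IsLattice Γ) (_ : ∀ g : Γ, g ≠ 1 → Set.Infinite {y : Γ | ∃ h, y = h * g * h⁻¹})
    {Λ : Type} [Group Λ] [Countable Λ]
    (_ : ∀ g : Λ, g ≠ 1 → Set.Infinite {y : Λ | ∃ h, y = h * g * h⁻¹})
    {α : Γ →* (Ell2 Λ →L[ℂ] Ell2 Λ)} (hα : Frame α),
    Pic2 (pic hν hα) (lam₁ ν α) (lam₂ ν α) (XX ν Λ) (Om ν Λ) ∧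
    TV (pic hν hα) (lam₁ ν α) (XX ν Λ ∪ Set.range (lam₂ ν α)) (Om ν Λ) ∧
    TV (pic hν hα) (lam₂ ν α) (XX ν Λ ∪ Set.range (lam₁ ν α)) (Om ν Λ)

/-- [U4]-[U7] Both legs and their calculi in the concrete picture. -/
def ExStmt (k : Type) [NontriviallyNormedField k] [ProperSpace k] [MeasurableSpace k]
    (μ : Measure k) : Prop :=
  ∀ [LocallyCompactSpace (G3 k)] [SecondCountableTopology (G3 k)] [MeasurableSpace (G3 k)]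
    [BorelSpace (G3 k)] {Γ : Subgroup (G3 k)} [DiscreteTopology Γ] [Countable Γ]
    [MeasurableSpace (G3 k ⧸ Γ)] [BorelSpace (G3 k ⧸ Γ)] {ν : Measure (G3 k ⧸ Γ)}
    [IsProbabilityMeasure ν] (hν : ∀ g : G3 k, ν.map (fun x => g • x) = ν)
    (_ : H515.St.IsLattice Γ) (_ : ∀ g : Γ, g ≠ 1 → Set.Infinite {y : Γ | ∃ h, y = h * g * h⁻¹})
    {Λ : Type} [Group Λ] [Countable Λ]
    (_ : ∀ g : Λ, g ≠ 1 → Set.Infinite {y : Λ | ∃ h, y = h * g * h⁻¹})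
    {α : Γ →* (Ell2 Λ →L[ℂ] Ell2 Λ)} (hα : Frame α),
    ∃ (w : kˣ) (m₁ m₂ : Set Γ → (KK ν Λ →L[ℂ] KK ν Λ)) (q₁ q₂ : Γ →* G3 k)
      (E₁ F₁ E₂ F₂ : PP k → (CP k →⋆ₐ[ℂ] (KK ν Λ →L[ℂ] KK ν Λ))),
      LegS μ w (pic hν hα) (lam₁ ν α) (XX ν Λ ∪ Set.range (lam₂ ν α)) (Om ν Λ) m₁ q₁ E₁ F₁ ∧
      LegS μ w (pic hν hα) (lam₂ ν α) (XX ν Λ ∪ Set.range (lam₁ ν α)) (Om ν Λ) m₂ q₂ E₂ F₂

/-- The core statement over `k`: `Λ` any countable ICC group. -/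
def CoreK (k : Type) [NontriviallyNormedField k] : Prop :=
  ∀ (Γ : Subgroup (G3 k)), H515.St.IsLattice Γ →
    (∀ g : Γ, g ≠ 1 → Set.Infinite {y : Γ | ∃ h, y = h * g * h⁻¹}) →
    ∀ {Λ : Type} [Group Λ] [Countable Λ],
      (∀ g : Λ, g ≠ 1 → Set.Infinite {y : Λ | ∃ h, y = h * g * h⁻¹}) →
      ∀ α : Γ →* (Ell2 Λ →L[ℂ] Ell2 Λ), Frame α → ∃ c : ℝ, 0 < c ∧ ∀ g, c ≤ p4 α g

end Vale.Agent.P092.H252.DU
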