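import Vale.Agent.P092.H252.DU.Blocks

/-!
P092, D-ULTRA [U12] (helper252): a classical leg `CQ` over `PGL_3(k)` gives helper264's `CLeg`
(injectivity modulo the centre from ICC, finiteness on compact sets from the norm).
-/

set_option linter.all false

open scoped InnerProductSpace ENNReal LinearAlgebra.Projectivization ZeroAtInfty
open Filter Topology ContinuousLinearMap MeasureTheory TopologicalSpace Matrix

namespace Vale.Agent.P092.H252.DU

open Vale.Agent.P092.SD
open Vale.Agent.P092.RC (Cm PG)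
open Vale.Agent.P092.H264.Cl (CLeg)

section top

variable (k : Type) [NontriviallyNormedField k] [ProperSpace k]

theorem lc_mat : LocallyCompactSpace (Matrix (Fin 3) (Fin 3) k) :=
  inferInstanceAs (LocallyCompactSpace (Fin 3 → Fin 3 → k))

theorem lc_pg : LocallyCompactSpace (PG k 3) := by
  haveI := lc_mat k
  infer_instance

end top

section fn

variable {k : Type} [NontriviallyNormedField k]

/-- `‖g‖ ^ 3 / ‖det g‖` -/
noncomputable def fn (g : GL (Fin 3) k) : ℝ :=
  ‖(fun i j => g.1 i j : Fin 3 → Fin 3 → k)‖ ^ 3 / ‖g.1.det‖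

theorem fn_center {a z : GL (Fin 3) k} (hz : z ∈ Subgroup.center (GL (Fin 3) k)) :
    fn (a * z) = fn a := by
  rw [Matrix.GeneralLinearGroup.mem_center_iff_val_mem_range_scalar] at hz
  obtain ⟨c, hc⟩ := hz
  have e1 : (a * z).1 = c • a.1 := by
    change a.1 * z.1 = _
    rw [← hc, Matrix.scalar_apply]
    ext i j
    simp [Matrix.mul_diagonal, mul_comm]
  have hc0 : c ≠ 0 := by
    rintro rfl
    have h1 : z.1 = 0 := by
      rw [← hc]
      simp
    have h2 : z.1 * (z⁻¹).1 = 1 := by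
      rw [← Units.val_mul, mul_inv_cancel, Units.val_one]
    rw [h1, zero_mul] at h2
    exact zero_ne_one h2
  have hc1 : ‖c‖ ≠ 0 := norm_ne_zero_iff.2 hc0
  unfold fn
  rw [e1, Matrix.det_smul, Fintype.card_fin, norm_mul, norm_pow]
  have e2 : (fun i j => (c • a.1) i j : Fin 3 → Fin 3 → k) =
      c • (fun i j => a.1 i j : Fin 3 → Fin 3 → k) := rfl
  rw [e2, norm_smul, mul_pow, mul_div_mul_left _ _ (pow_ne_zero 3 hc1)]

theorem continuous_fn : Continuous (fn : GL (Fin 3) k → ℝ) := by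
  have h1 : Continuous fun g : GL (Fin 3) k => g.1 := Units.continuous_val
  have h2 : Continuous fun g : GL (Fin 3) k => (fun i j => g.1 i j : Fin 3 → Fin 3 → k) :=
    continuous_pi fun i => continuous_pi fun j => h1.matrix_elem i j
  refine (h2.norm.pow 3).div h1.matrix_det.norm fun g => ?_
  exact norm_ne_zero_iff.2 ((Matrix.isUnit_iff_isUnit_det _).1 g.isUnit).ne_zero

/-- the same on `PGL_3(k)` -/
noncomputable def fb : PG k 3 → ℝ :=
  Quotient.lift (fn : GL (Fin 3) k → ℝ) fun a b h => by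
    have h1 : a⁻¹ * b ∈ Subgroup.center (GL (Fin 3) k) := QuotientGroup.leftRel_apply.1 h
    have h2 := fn_center (a := a) h1
    rw [mul_inv_cancel_left] at h2
    exact h2.symm

theorem fb_mk (g : GL (Fin 3) k) : fb (QuotientGroup.mk g : PG k 3) = fn g := rfl

theorem continuous_fb : Continuous (fb : PG k 3 → ℝ) :=
  continuous_fn.quotient_lift _

theorem fb_sp (h : G3 k) : fb (sp k h) = nm h ^ 3 := by
  change fn (Matrix.SpecialLinearGroup.toGL h) = _
  unfold fn nm
  have h1 : (Matrix.SpecialLinearGroup.toGL h).1 = h.1 := rfl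
  rw [h1, h.2, norm_one, div_one]

end fn

section leg

variable {k : Type} [NontriviallyNormedField k] [ProperSpace k] {Γ K : Type}
  [Group Γ] [NormedAddCommGroup K] [InnerProductSpace ℂ K] [CompleteSpace K]

theorem disc_sp {q : Γ →* G3 k} (hd : ∀ C : ℝ, {γ : Γ | nm (q γ) ≤ C}.Finite) (C : Set (PG k 3))
    (hC : IsCompact C) : {γ | (sp k).comp q γ ∈ C}.Finite := by
  obtain ⟨M, hM⟩ := hC.bddAbove_image (f := fb) continuous_fb.continuousOn
  refine (hd (max 1 M)).subset fun γ hγ => ?_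
  have h1 : fb (sp k (q γ)) ≤ M := hM ⟨_, hγ, rfl⟩
  rw [fb_sp] at h1
  rcases le_or_gt (nm (q γ)) 1 with h2 | h2
  · exact h2.trans (le_max_left _ _)
  · refine le_trans ?_ (h1.trans (le_max_right _ _))
    exact le_self_pow₀ h2.le three_ne_zero

theorem inj_sp {q : Γ →* G3 k} (hq : Function.Injective q)
    (hicc : ∀ g : Γ, g ≠ 1 → Set.Infinite {y : Γ | ∃ h, y = h * g * h⁻¹}) :
    Function.Injective ((sp k).comp q) := by
  rw [injective_iff_map_eq_one]
  intro γ hγ
  by_contra hne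
  refine hicc γ hne ?_
  have h1 : Matrix.SpecialLinearGroup.toGL (q γ) ∈ Subgroup.center (GL (Fin 3) k) :=
    (QuotientGroup.eq_one_iff _).1 hγ
  have h2 : ∀ h, h * γ * h⁻¹ = γ := by
    intro h
    have h3 : q h * q γ = q γ * q h := by
      have h4 := Subgroup.mem_center_iff.1 h1 (Matrix.SpecialLinearGroup.toGL (q h))
      have h5 := congrArg Units.val h4
      apply Subtype.ext
      exact h5
    apply hq
    rw [map_mul, map_mul, h3, mul_assoc, ← map_mul, mul_inv_cancel, map_one, mul_one]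
  have h3 : {y : Γ | ∃ h, y = h * γ * h⁻¹} ⊆ {γ} := by
    rintro y ⟨h, rfl⟩
    exact h2 h
  exact (Set.finite_singleton γ).subset h3

theorem CQ.cleg {π : G3 k →* (K →L[ℂ] K)} {lam : Γ →* (K →L[ℂ] K)} {W : Set (K →L[ℂ] K)}
    {q : Γ →* G3 k} {Q : C₀(PG k 3, ℂ) →⋆ₙₐ[ℂ] (K →L[ℂ] K)} (h : CQ π lam W q Q)
    (hicc : ∀ g : Γ, g ≠ 1 → Set.Infinite {y : Γ | ∃ h, y = h * g * h⁻¹})
    (hq : Function.Injective q) (hd : ∀ C : ℝ, {γ : Γ | nm (q γ) ≤ C}.Finite) :
    CLeg π lam W ((sp k).comp q) Q where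
  nd := h.nd
  cm := h.cm
  cov := h.cov
  pcov := h.pcov
  inj := inj_sp hq hicc
  disc := disc_sp hd

end leg

end Vale.Agent.P092.H252.DU
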