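import Vale.Agent.P092.H34.PicE
import Vale.Agent.P092.H103.PicT
import Vale.Agent.P092.H252.DU.Blocks

/-!
P092 (helper252), Team D-ULTRA: `PicStmt k`, for every local field `k`.
-/

set_option linter.all false

open scoped InnerProductSpace ENNReal
open MeasureTheory Filter Topology ContinuousLinearMap

namespace Vale.Agent.P092.H252.DU

open Vale.Agent.P092.RC Vale.Agent.P092.SD

theorem picStmt (k : Type) [NontriviallyNormedField k] [ProperSpace k] [MeasurableSpace k]
    [BorelSpace k] : PicStmt k := by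
  intro _ _ _ _ Γ _ _ _ _ ν _ hν _ _ Λ _ _ hΛ α hα
  haveI : NoncompactSpace (G3 k) := H34.PicC.sl_noncompact (show (0 : Fin 3) ≠ 1 by decide)
  exact ⟨H34.PicC.pic2 hν hα hΛ, H103.tv₁ hν hα, H103.tv₂ hν hα⟩

end Vale.Agent.P092.H252.DU
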