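import Vale.Agent.P092.H252.DU.Main
import Vale.Agent.P092.H252.DU.Pic
import Vale.Agent.P092.H534.DUEx
import Vale.Agent.P092.H375.ClsU3
import Vale.Agent.P092.H325.NXs

/-!
P092, D-ULTRA (helper252): every ICC lattice of `SL_3(k)`, `k` a nonarchimedean local field of any
characteristic, is W*-superrigid.
-/

set_option linter.all false

open MeasureTheory

namespace Vale.Agent.P092.H252.DU

/-- **D-ULTRA.** -/
theorem na_super : ∀ (Γ : Type) [Group Γ], NaLattice Γ → SR.St.Super Γ :=
  super_of fun k _ _ hu _ _ μ _ w hw hm =>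
    ⟨H375.Cls.clsXC_of (.ultra hu) μ (H325.xcStmt k), picStmt k,
      H534.GK.exStmt (.ultra hu) μ hw hm⟩

end Vale.Agent.P092.H252.DU
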