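import Vale.Agent.P092.H252.DU.End
import Vale.Agent.P092.H252.DU.Norm
import Vale.Agent.P092.H252.ULeg
import Vale.Agent.P092.SD.Top

/-!
P092, D-ULTRA [U12] (helper252): the assembly for lattices of `SL_3(k)`, `k` a nonarchimedean local
field of any characteristic, `Λ` any countable ICC group.
-/

set_option linter.all false

open scoped InnerProductSpace ENNReal LinearAlgebra.Projectivization ZeroAtInfty
open Filter Topology ContinuousLinearMap MeasureTheory TopologicalSpace Matrix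

namespace Vale.Agent.P092.H252.DU

open Vale.Agent.P092.SD Vale.Agent.P092.SR Vale.Agent.P092.H160
open Vale.Agent.P092.RC (Cm TRN Moore Pic2 PG KK pic lam₁ lam₂ XX Om)
open Vale.Agent.P092.H368.SN (md)

/-- `Γ` is an ICC lattice in `SL_3(k)`, `k` a nonarchimedean local field. -/
def NaLattice (Γ : Type) [Group Γ] : Prop :=
  SR.St.ICC Γ ∧ ∃ (k : Type) (_ : NontriviallyNormedField k)
    (i : Γ →* Matrix.SpecialLinearGroup (Fin 3) k),
    ProperSpace k ∧ IsUltrametricDist k ∧ Function.Injective i ∧ H515.St.IsLattice i.range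

section core

variable {k : Type} [NontriviallyNormedField k] [ProperSpace k] [IsUltrametricDist k]
  [MeasurableSpace k] [BorelSpace k] {μ : Measure k} [μ.IsAddHaarMeasure]

/-- **Assembly over `k`.** -/
theorem coreK_of (hX : ClsXCStmt k μ) (hP : PicStmt k) (hEx : ExStmt k μ) : CoreK k := by
  intro Γ hΓ hicc Λ _ _ hΛ α hα
  haveI h1 : LocallyCompactSpace (G3 k) := H303.locallyCompact_SL
  haveI h2 : SecondCountableTopology (G3 k) := H303.secondCountable_SL
  letI : MeasurableSpace (G3 k) := borel _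
  haveI : BorelSpace (G3 k) := ⟨rfl⟩
  haveI hd : DiscreteTopology Γ := hΓ.disc
  haveI hc : Countable Γ := H790.countable_of_discrete (E := G3 k) Γ
  letI : MeasurableSpace (G3 k ⧸ Γ) := borel _
  haveI : BorelSpace (G3 k ⧸ Γ) := ⟨rfl⟩
  obtain ⟨ν, hP', hν⟩ := H515.IsLattice.exists_prob (Λ := Γ) ⟨hΓ.disc, hΓ.covol⟩
  obtain ⟨p2, tv1, tv2⟩ := hP (Γ := Γ) hν hΓ hicc hΛ hα
  obtain ⟨w, m₁, m₂, q₁, q₂, E₁, F₁, E₂, F₂, l1, l2⟩ := hEx (Γ := Γ) hν hΓ hicc hΛ hα
  have c1 := legComm_nonarch k μ w _ _ _ _ m₁ q₁ E₁ F₁ l1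
  have c2 := legComm_nonarch k μ w _ _ _ _ m₂ q₂ E₂ F₂ l2
  obtain ⟨Q₁, Q₂, h1, h2, hc⟩ := hX w _ _ _ _ _ m₁ m₂ q₁ q₂ E₁ F₁ E₂ F₂ p2 tv1 tv2 l1 l2 c1 c2
  haveI : LocallyCompactSpace (PG k 3) := lc_pg k
  haveI : T2Space (PG k 3) := H200.Coc.t2_pg
  exact hgt_of_mono hα (H264.Cl.mono_of_legs hν hα (h1.cleg hicc l1.inj l1.disc)
    (h2.cleg hicc l2.inj l2.disc) hc)

end core

/-- the three inputs over `k` -/
def Inputs (k : Type) [NontriviallyNormedField k] [ProperSpace k] [MeasurableSpace k]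
    (μ : Measure k) : Prop :=
  ClsXCStmt k μ ∧ PicStmt k ∧ ExStmt k μ

/-- **D-ULTRA**, modulo the three inputs over the fields `k` with `md w ≤ ‖w‖ < 1` for some `w`. -/
theorem super_of
    (h : ∀ (k : Type) [NontriviallyNormedField k] [ProperSpace k] [IsUltrametricDist k]
      [MeasurableSpace k] [BorelSpace k] (μ : Measure k) [μ.IsAddHaarMeasure] (w : kˣ),
      ‖(w : k)‖ < 1 → md w ≤ ‖(w : k)‖ → Inputs k μ) :
    ∀ (Γ : Type) [Group Γ], NaLattice Γ → SR.St.Super Γ := by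
  intro Γ _ hΓ
  obtain ⟨hicc, k, _, i, _, _, hi, hl⟩ := hΓ
  obtain ⟨k', _, _, _, w, i', hw, hm, hi', hl'⟩ := exists_norm 3 i hi hl
  letI : MeasurableSpace k' := borel k'
  haveI : BorelSpace k' := ⟨rfl⟩
  obtain ⟨hX, hP, hEx⟩ := h k' (Measure.addHaar : Measure k') w hw hm
  have hcore : CoreK k' := coreK_of hX hP hEx
  refine H58.super_equiv (MonoidHom.ofInjective hi') fun Λ _ _ hΛ θ => ?_
  have hicc' := H133.icc_equiv (MonoidHom.ofInjective hi') hicc
  exact canonical_of_hgt hicc' θ fun α hα => hcore i'.range hl' hicc' hΛ α hα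

end Vale.Agent.P092.H252.DU
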