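import Vale.Agent.P092.H375.ClsG
import Vale.Agent.P092.H171.Zo
import Vale.Agent.P092.H252.UQP

/-!
P092 (helper252), Team D-ULTRA: in the quantum plane of one leg (everything commutes) the joint
laws of finitely many points preserve the matroid: `Leg.mt` of `H375/ClsC` for `n = 3`.
-/

set_option linter.all false

namespace Vale.Agent.P092.H252.DU

open Vale.Agent.P092.H820 Vale.Agent.P092.SD Vale.Agent.P092.H466 Vale.Agent.P092.H171
open Vale.Agent.P092.H375.Cls (rk Mt)
open TopologicalSpace Set MeasureTheory Matrix Module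
open scoped LinearAlgebra.Projectivization Matrix InnerProductSpace

/-! ### Geometry -/

section geo

variable {k : Type} [NontriviallyNormedField k]

/-- three points on a line -/
def Col (p q r : PP k) : Prop :=
  ∃ c : PP k, (p, c) ∈ inc3 (k := k) ∧ (q, c) ∈ inc3 (k := k) ∧ (r, c) ∈ inc3 (k := k)

/-- the linear form of a line -/
theorem mem_ker {p : PP k} {w : {v : Fin 3 → k // v ≠ 0}} :
    (p, pj k (Fin 3) w) ∈ inc3 (k := k) ↔
      p.submodule ≤ LinearMap.ker (dotProductEquiv k (Fin 3) w.1) := by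
  obtain ⟨v, rfl⟩ := pj_surj p
  have e : (pj k (Fin 3) v).submodule = Submodule.span k {v.1} :=
    Projectivization.submodule_mk _ v.2
  rw [orthogonal_iff, e, Submodule.span_singleton_le_iff_mem, LinearMap.mem_ker]
  change _ ↔ w.1 ⬝ᵥ v.1 = 0
  rw [dotProduct_comm]

/-- a proper subspace is contained in a line -/
theorem exists_line {S : Submodule k (Fin 3 → k)} (h : S ≠ ⊤) :
    ∃ c : PP k, ∀ p : PP k, p.submodule ≤ S → (p, c) ∈ inc3 (k := k) := by
  obtain ⟨f, hf, hS⟩ := Submodule.exists_le_ker_of_lt_top S (lt_top_iff_ne_top.2 h)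
  obtain ⟨w, rfl⟩ := (dotProductEquiv k (Fin 3)).surjective f
  have hw : w ≠ 0 := by rintro rfl; exact hf (map_zero _)
  exact ⟨pj k (Fin 3) ⟨w, hw⟩, fun p hp => mem_ker.2 (hp.trans hS)⟩

theorem finrank_le_two {S : Submodule k (Fin 3 → k)} (h : S ≠ ⊤) : finrank k S ≤ 2 := by
  have h1 := Submodule.finrank_lt h
  rw [finrank_fin_fun] at h1
  omega

theorem ker_ne_top (w : {v : Fin 3 → k // v ≠ 0}) :
    LinearMap.ker (dotProductEquiv k (Fin 3) w.1) ≠ ⊤ := by
  intro h
  rw [LinearMap.ker_eq_top] at h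
  exact w.2 ((dotProductEquiv k (Fin 3)).map_eq_zero_iff.1 h)

theorem sup_lt {p q : PP k} (h : p ≠ q) : p.submodule < p.submodule ⊔ q.submodule := by
  refine lt_of_le_of_ne le_sup_left fun e => h ?_
  have h1 : q.submodule ≤ p.submodule := by rw [e]; exact le_sup_right
  refine Projectivization.submodule_injective ?_
  exact (Submodule.eq_of_le_of_finrank_eq h1 (by
    rw [Projectivization.finrank_submodule, Projectivization.finrank_submodule])).symm

theorem two_le {p q : PP k} (h : p ≠ q) {S : Submodule k (Fin 3 → k)} (hp : p.submodule ≤ S)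
    (hq : q.submodule ≤ S) : 2 ≤ finrank k S := by
  have h1 := Submodule.finrank_lt_finrank_of_lt ((sup_lt h).trans_le (sup_le hp hq))
  rw [Projectivization.finrank_submodule] at h1
  omega

/-- two points are on a line -/
theorem exists_join (p q : PP k) : ∃ c : PP k, (p, c) ∈ inc3 (k := k) ∧ (q, c) ∈ inc3 (k := k) := by
  have h1 : p.submodule ⊔ q.submodule ≠ ⊤ := by
    intro h
    have h2 := Submodule.finrank_add_le_finrank_add_finrank p.submodule q.submodule
    rw [h, finrank_top, finrank_fin_fun, Projectivization.finrank_submodule,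
      Projectivization.finrank_submodule] at h2
    omega
  obtain ⟨c, hc⟩ := exists_line h1
  exact ⟨c, hc p le_sup_left, hc q le_sup_right⟩

variable {ι : Type*} {a z : ι → PP k}

theorem rk_one {A : Finset ι} {i : ι} (hi : i ∈ A) (h : ∀ l ∈ A, z l = z i) : rk z A = 1 := by
  have e : (⨆ l ∈ A, (z l).submodule : Submodule k (Fin 3 → k)) = (z i).submodule := by
    refine le_antisymm (iSup₂_le fun l hl => by rw [h l hl]) ?_
    exact le_iSup₂_of_le i hi le_rfl
  rw [rk, e, Projectivization.finrank_submodule]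

theorem rk_two {A : Finset ι} {i j : ι} (hi : i ∈ A) (hj : j ∈ A) (hij : z i ≠ z j)
    (h : ∀ l ∈ A, Col (z i) (z j) (z l)) : rk z A = 2 := by
  obtain ⟨c, c1, c2, -⟩ := h i hi
  have h1 : ∀ l ∈ A, (z l, c) ∈ inc3 (k := k) := by
    intro l hl
    obtain ⟨d, d1, d2, d3⟩ := h l hl
    rwa [inc3_uniq _ _ c d hij c1 c2 d1 d2]
  obtain ⟨w, rfl⟩ := pj_surj c
  refine le_antisymm (finrank_le_two fun ht => ker_ne_top w ?_) (two_le hij ?_ ?_)
  · rw [← top_le_iff, ← ht]
    exact iSup₂_le fun l hl => mem_ker.1 (h1 l hl)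
  · exact le_iSup₂_of_le i hi le_rfl
  · exact le_iSup₂_of_le j hj le_rfl

theorem rk_three {A : Finset ι} {i j l : ι} (hi : i ∈ A) (hj : j ∈ A) (hl : l ∈ A)
    (h : ¬ Col (z i) (z j) (z l)) : rk z A = 3 := by
  have e : (⨆ l ∈ A, (z l).submodule : Submodule k (Fin 3 → k)) = ⊤ := by
    by_contra hne
    obtain ⟨c, hc⟩ := exists_line hne
    exact h ⟨c, hc _ (le_iSup₂_of_le i hi le_rfl), hc _ (le_iSup₂_of_le j hj le_rfl),
      hc _ (le_iSup₂_of_le l hl le_rfl)⟩
  rw [rk, e, finrank_top, finrank_fin_fun]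

/-- equality and collinearity determine the matroid -/
theorem mt_of_col (h1 : ∀ i j, z i = z j ↔ a i = a j)
    (h2 : ∀ i j l, Col (z i) (z j) (z l) ↔ Col (a i) (a j) (a l)) : Mt a z := by
  intro A
  rcases A.eq_empty_or_nonempty with rfl | ⟨i, hi⟩
  · have e : ∀ z : ι → PP k, (⨆ i ∈ (∅ : Finset ι), (z i).submodule :
        Submodule k (Fin 3 → k)) = ⊥ := fun z => by simp
    rw [rk, rk, e z, e a]
  by_cases hA : ∀ l ∈ A, a l = a i
  · rw [rk_one hi hA, rk_one hi fun l hl => (h1 l i).2 (hA l hl)]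
  push Not at hA
  obtain ⟨j, hj, hji⟩ := hA
  by_cases hB : ∀ l ∈ A, Col (a i) (a j) (a l)
  · rw [rk_two hi hj (Ne.symm hji) hB, rk_two hi hj (fun h => hji ((h1 i j).1 h).symm)
      fun l hl => (h2 i j l).2 (hB l hl)]
  push Not at hB
  obtain ⟨l, hl, hc⟩ := hB
  rw [rk_three hi hj hl hc, rk_three hi hj hl fun h => hc ((h2 i j l).1 h)]

/-- the pointwise argument with the joining lines -/
theorem cl_of_lines {c d : ι × ι → PP k} (hc1 : ∀ p, (a p.1, c p) ∈ inc3 (k := k))
    (hc2 : ∀ p, (a p.2, c p) ∈ inc3 (k := k))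
    (g1 : ∀ i p, (a i, c p) ∈ inc3 (k := k) → (z i, d p) ∈ inc3 (k := k))
    (g2 : ∀ i j, a i ≠ a j → z i ≠ z j) (g3 : ∀ i j, a i = a j → z i = z j)
    (g4 : ∀ p p', c p ≠ c p' → d p ≠ d p') : (∀ i j, z i = z j ↔ a i = a j) ∧
      ∀ i j l, Col (z i) (z j) (z l) ↔ Col (a i) (a j) (a l) := by
  refine ⟨fun i j => ⟨fun h => by_contra fun h' => g2 i j h' h, g3 i j⟩, ?_⟩
  intro i j l
  constructor
  · intro h
    by_contra hn
    have hij : a i ≠ a j := fun e => hn ⟨c (i, l), hc1 (i, l), e ▸ hc1 (i, l), hc2 (i, l)⟩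
    have hil : a i ≠ a l := fun e => hn ⟨c (i, j), hc1 (i, j), hc2 (i, j), e ▸ hc1 (i, j)⟩
    have hcc : c (i, j) ≠ c (i, l) := fun e =>
      hn ⟨c (i, j), hc1 (i, j), hc2 (i, j), by rw [e]; exact hc2 (i, l)⟩
    obtain ⟨e, e1, e2, e3⟩ := h
    have k1 : e = d (i, j) := inc3_uniq _ _ _ _ (g2 i j hij) e1 e2 (g1 i (i, j) (hc1 (i, j)))
      (g1 j (i, j) (hc2 (i, j)))
    have k2 : e = d (i, l) := inc3_uniq _ _ _ _ (g2 i l hil) e1 e3 (g1 i (i, l) (hc1 (i, l)))
      (g1 l (i, l) (hc2 (i, l)))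
    exact g4 _ _ hcc (k1.symm.trans k2)
  · rintro ⟨e, e1, e2, e3⟩
    by_cases hij : a i = a j
    · refine ⟨d (i, l), g1 i (i, l) (hc1 (i, l)), ?_, g1 l (i, l) (hc2 (i, l))⟩
      rw [← g3 i j hij]
      exact g1 i (i, l) (hc1 (i, l))
    · have k1 : e = c (i, j) := inc3_uniq _ _ _ _ hij e1 e2 (hc1 (i, j)) (hc2 (i, j))
      subst k1
      exact ⟨d (i, j), g1 i (i, j) e1, g1 j (i, j) e2, g1 l (i, j) e3⟩

end geo

/-! ### Almost everywhere -/

section ae

variable {k : Type} [NontriviallyNormedField k] [ProperSpace k] {K : Type}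
  [NormedAddCommGroup K] [InnerProductSpace ℂ K] [CompleteSpace K]
  {E F : PP k → (CP k →⋆ₐ[ℂ] (K →L[ℂ] K))}

theorem isClosed_col {ι : Type} (i j l : ι) :
    IsClosed {z : ι → PP k | Col (z i) (z j) (z l)} := by
  have e : {z : ι → PP k | Col (z i) (z j) (z l)} = Prod.fst '' {x : (ι → PP k) × PP k |
      (x.1 i, x.2) ∈ inc3 (k := k) ∧ (x.1 j, x.2) ∈ inc3 (k := k) ∧
        (x.1 l, x.2) ∈ inc3 (k := k)} := by
    ext z
    constructor
    · rintro ⟨c, hc⟩
      exact ⟨(z, c), hc, rfl⟩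
    · rintro ⟨⟨z', c⟩, hc, rfl⟩
      exact ⟨c, hc⟩
  rw [e]
  refine isClosedMap_fst_of_compactSpace _ ?_
  have h : ∀ i : ι, IsClosed {x : (ι → PP k) × PP k | (x.1 i, x.2) ∈ inc3 (k := k)} :=
    fun i => inc3_closed.preimage (f := fun x : (ι → PP k) × PP k => (x.1 i, x.2))
      (((continuous_apply i).comp continuous_fst).prodMk continuous_snd)
  exact (h i).inter ((h j).inter (h l))

theorem measurableSet_cl {ι : Type} [Finite ι] (a : ι → PP k) :
    MeasurableSet {z : ι → PP k | (∀ i j, z i = z j ↔ a i = a j) ∧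
      ∀ i j l, Col (z i) (z j) (z l) ↔ Col (a i) (a j) (a l)} := by
  have m1 : ∀ i j, MeasurableSet {z : ι → PP k | z i = z j ↔ a i = a j} := by
    intro i j
    have h0 : MeasurableSet {z : ι → PP k | z i = z j} :=
      (isClosed_eq (continuous_apply i) (continuous_apply j)).measurableSet
    by_cases h : a i = a j
    · simpa only [h, iff_true] using h0
    · simp only [h, iff_false]
      exact h0.compl
  have m2 : ∀ i j l, MeasurableSet {z : ι → PP k | Col (z i) (z j) (z l) ↔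
      Col (a i) (a j) (a l)} := by
    intro i j l
    have h0 : MeasurableSet {z : ι → PP k | Col (z i) (z j) (z l)} :=
      (isClosed_col i j l).measurableSet
    by_cases h : Col (a i) (a j) (a l)
    · simpa only [h, iff_true] using h0
    · simp only [h, iff_false]
      exact h0.compl
  simp only [setOf_and, setOf_forall]
  exact (MeasurableSet.iInter fun i => MeasurableSet.iInter fun j => m1 i j).inter
    (MeasurableSet.iInter fun i => MeasurableSet.iInter fun j => MeasurableSet.iInter fun l =>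
      m2 i j l)

/-- **(MT) for the quantum plane.** -/
theorem mt_of (hQ : QP E F) (hEE : ∀ a b f g, Commute (E a f) (E b g))
    (hEF : ∀ a l f h, Commute (E a f) (F l h)) (hFF : ∀ l l' f g, Commute (F l f) (F l' g))
    {ι : Type} [Fintype ι] (a : ι → PP k) (Φ : C(ι → PP k, ℂ) →⋆ₐ[ℂ] (K →L[ℂ] K))
    (hΦ : ∀ i f, Φ (co i f) = E (a i) f) (ξ : K) : ∀ᵐ z ∂(ms Φ ξ), Mt a z := by
  choose c hc1 hc2 using fun p : ι × ι => exists_join (a p.1) (a p.2)
  let φ : ι ⊕ ι × ι → (CP k →⋆ₐ[ℂ] (K →L[ℂ] K)) := Sum.elim (fun i => E (a i)) fun p => F (c p)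
  have hφ : ∀ x y f g, Commute (φ x f) (φ y g) := by
    rintro (i | p) (j | p') f g
    · exact hEE _ _ _ _
    · exact hEF _ _ _ _
    · exact (hEF _ _ _ _).symm
    · exact hFF _ _ _ _
  obtain ⟨Ψ, hΨ⟩ := exists_joint φ hφ
  let r : C(ι ⊕ ι × ι → PP k, ι → PP k) := ⟨fun y i => y (.inl i), by fun_prop⟩
  have hr : Φ = Ψ.comp (r.compStarAlgHom' ℂ ℂ) := by
    ext1 F
    change Φ F = Ψ (F.comp r)
    refine co_induction (fun F => Φ F = Ψ (F.comp r)) ?_ ?_ ?_ ?_ ?_ F
    · refine isClosed_eq (cont_hom Φ) ?_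
      exact (cont_hom Ψ).comp (ContinuousMap.continuous_precomp _)
    · intro i f
      rw [hΦ i f]
      exact (hΨ (.inl i) f).symm
    · intro x
      have e : (algebraMap ℂ C(ι → PP k, ℂ) x).comp r = algebraMap ℂ C(ι ⊕ ι × ι → PP k, ℂ) x := rfl
      rw [e, AlgHomClass.commutes, AlgHomClass.commutes]
    · intro F G hF hG
      rw [map_add, hF, hG, ← map_add]
      rfl
    · intro F G hF hG
      rw [map_mul, hF, hG, ← map_mul]
      rfl
  have key : ∀ᵐ y ∂(ms Ψ ξ), r y ∈ {z : ι → PP k | (∀ i j, z i = z j ↔ a i = a j) ∧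
      ∀ i j l, Col (z i) (z j) (z l) ↔ Col (a i) (a j) (a l)} := by
    have s1 : ∀ᵐ y ∂(ms Ψ ξ), ∀ i p, (a i, c p) ∈ inc3 (k := k) →
        (y (.inl i), y (.inr p)) ∈ inc3 (k := k) := by
      refine ae_all_iff.2 fun i => ae_all_iff.2 fun p => ?_
      by_cases h : (a i, c p) ∈ inc3 (k := k)
      · filter_upwards [ae_inc hΨ (i := .inl i) (j := .inr p) inc3_closed (fun u v huv =>
          hQ.inc (a i) (c p) h u v huv) ξ] with y hy _ using hy
      · exact Filter.Eventually.of_forall fun y h' => absurd h' h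
    have s2 : ∀ᵐ y ∂(ms Ψ ξ), ∀ i j, a i ≠ a j → y (.inl i) ≠ y (.inl j) := by
      refine ae_all_iff.2 fun i => ae_all_iff.2 fun j => ?_
      by_cases h : a i = a j
      · exact Filter.Eventually.of_forall fun y h' => absurd h h'
      · filter_upwards [ae_ne hΨ (i := .inl i) (j := .inl j) (hQ.agrE _ _ h) ξ] with y hy _
          using hy
    have s3 : ∀ᵐ y ∂(ms Ψ ξ), ∀ i j, a i = a j → y (.inl i) = y (.inl j) := by
      refine ae_all_iff.2 fun i => ae_all_iff.2 fun j => ?_
      by_cases h : a i = a j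
      · have := ae_inc hΨ (i := .inl i) (j := .inl j) (I := {x : PP k × PP k | x.1 = x.2})
          (isClosed_eq continuous_fst continuous_snd) (fun u v huv => by
            change E (a i) u * E (a j) v = 0
            rw [h, ← map_mul]
            have e : u * v = 0 := by
              ext x
              by_contra hx
              have hx' : u x * v x ≠ 0 := hx
              exact huv x (subset_tsupport _ (left_ne_zero_of_mul hx')) x
                (subset_tsupport _ (right_ne_zero_of_mul hx')) rfl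
            rw [e, map_zero]) ξ
        filter_upwards [this] with y hy _ using hy
      · exact Filter.Eventually.of_forall fun y h' => absurd h' h
    have s4 : ∀ᵐ y ∂(ms Ψ ξ), ∀ p p', c p ≠ c p' → y (.inr p) ≠ y (.inr p') := by
      refine ae_all_iff.2 fun p => ae_all_iff.2 fun p' => ?_
      by_cases h : c p = c p'
      · exact Filter.Eventually.of_forall fun y h' => absurd h h'
      · filter_upwards [ae_ne hΨ (i := .inr p) (j := .inr p') (hQ.agrF _ _ h) ξ] with y hy _
          using hy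
    filter_upwards [s1, s2, s3, s4] with y t1 t2 t3 t4
    exact cl_of_lines (z := fun i => y (.inl i)) (d := fun p => y (.inr p)) hc1 hc2 t1 t2 t3 t4
  have h2 : ∀ᵐ z ∂(ms Φ ξ), z ∈ {z : ι → PP k | (∀ i j, z i = z j ↔ a i = a j) ∧
      ∀ i j l, Col (z i) (z j) (z l) ↔ Col (a i) (a j) (a l)} := by
    rw [hr, ms_restr]
    exact (ae_map_iff r.continuous.measurable.aemeasurable (measurableSet_cl a)).2 key
  filter_upwards [h2] with z hz
  exact mt_of_col hz.1 hz.2

end ae

end Vale.Agent.P092.H252.DU
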